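import Vale.Agent.Lib.P344.Defs

/-!
# P344: the additive part of the lower bound
-/

namespace Vale.Agent.P344

open Finset

theorem length_eq_counts (C : List Gate) : C.length = addCount C + smulCount C := by
  induction C with
  | nil => rfl
  | cons g C ih =>
    cases g <;> simp [addCount, smulCount, ih] <;> omega

section generic

variable {M M' : Type*} [AddCommGroup M] [Module ℂ M] [AddCommGroup M'] [Module ℂ M']

theorem getD_map_zero (f : M →ₗ[ℂ] M') (vals : List M) (i : ℕ) :
    (vals.map f).getD i 0 = f (vals.getD i 0) := by
  have := List.getD_map (l := vals) (n := i) (d := (0 : M)) (f := f)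
  simpa using this

theorem eval_map (f : M →ₗ[ℂ] M') (vals : List M) (g : Gate) :
    g.eval (vals.map f) = f (g.eval vals) := by
  cases g <;> simp only [Gate.eval, getD_map_zero, map_add, map_sub, map_smul]

theorem run_map (f : M →ₗ[ℂ] M') (C : List Gate) (vals : List M) :
    run C (vals.map f) = (run C vals).map f := by
  induction C generalizing vals with
  | nil => rfl
  | cons g C ih =>
    simp only [run]
    rw [← ih, List.map_append, eval_map]
    rfl

theorem getD_mem_or_zero (vals : List M) (i : ℕ) :
    vals.getD i 0 ∈ vals ∨ vals.getD i 0 = 0 := by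
  by_cases h : i < vals.length
  · left
    rw [List.getD_eq_getElem _ _ h]
    exact List.getElem_mem h
  · right
    exact List.getD_eq_default _ _ (not_lt.mp h)

end generic

section additive

variable {n : ℕ}

/-- All coordinates are nonzero. -/
def Full (v : Fin n → ℂ) : Prop := ∀ k, v k ≠ 0

/-- The support of `v` is monochromatic for the colouring `c`. -/
def Mono (c : Fin n → Fin n) (v : Fin n → ℂ) : Prop :=
  ∀ i j, v i ≠ 0 → v j ≠ 0 → c i = c j

theorem mono_zero (c : Fin n → Fin n) : Mono c 0 := fun _ _ h _ => absurd rfl h

/-- First invariant: supports are monochromatic for a colouring with many colours. -/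
def Inv1 (vals : List (Fin n → ℂ)) (a : ℕ) : Prop :=
  ∃ c : Fin n → Fin n, (∀ v ∈ vals, Mono c v) ∧ n ≤ (univ.image c).card + a

theorem inv1_add {vals : List (Fin n → ℂ)} {a : ℕ} (h : Inv1 vals a) {u v w : Fin n → ℂ}
    (hu : u ∈ vals ∨ u = 0) (hv : v ∈ vals ∨ v = 0)
    (hw : ∀ i, w i ≠ 0 → u i ≠ 0 ∨ v i ≠ 0) : Inv1 (vals ++ [w]) (a + 1) := by
  obtain ⟨c, hc, hcard⟩ := h
  have hcu : Mono c u := by
    rcases hu with hu | hu
    · exact hc u hu
    · rw [hu]; exact mono_zero c
  have hcv : Mono c v := by
    rcases hv with hv | hv
    · exact hc v hv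
    · rw [hv]; exact mono_zero c
  by_cases hu0 : ∃ k, u k ≠ 0
  · by_cases hv0 : ∃ l, v l ≠ 0
    · obtain ⟨k, hk⟩ := hu0
      obtain ⟨l, hl⟩ := hv0
      refine ⟨fun i => if c i = c l then c k else c i, ?_, ?_⟩
      · intro x hx
        rw [List.mem_append, List.mem_singleton] at hx
        rcases hx with hx | hx
        · intro i j hi hj
          have := hc x hx i j hi hj
          simp only [this]
        · subst hx
          have key : ∀ i, x i ≠ 0 → (if c i = c l then c k else c i) = c k := by
            intro i hi
            rcases hw i hi with h1 | h1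
            · have : c i = c k := hcu i k h1 hk
              rw [this]
              split_ifs <;> rfl
            · have : c i = c l := hcv i l h1 hl
              rw [if_pos this]
          intro i j hi hj
          simp only [key i hi, key j hj]
      · have hsub : univ.image c ⊆ insert (c l) (univ.image fun i => if c i = c l then c k else c i) := by
          intro y hy
          rw [mem_image] at hy
          obtain ⟨i, -, rfl⟩ := hy
          by_cases hi : c i = c l
          · rw [hi]; exact mem_insert_self _ _
          · apply mem_insert_of_mem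
            rw [mem_image]
            exact ⟨i, mem_univ _, by rw [if_neg hi]⟩
        have h1 := card_le_card hsub
        have h2 := card_insert_le (c l) (univ.image fun i => if c i = c l then c k else c i)
        omega
    · push Not at hv0
      refine ⟨c, ?_, by omega⟩
      intro x hx
      rw [List.mem_append, List.mem_singleton] at hx
      rcases hx with hx | hx
      · exact hc x hx
      · subst hx
        intro i j hi hj
        have h1 : u i ≠ 0 := (hw i hi).resolve_right (fun h => h (hv0 i))
        have h2 : u j ≠ 0 := (hw j hj).resolve_right (fun h => h (hv0 j))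
        exact hcu i j h1 h2
  · push Not at hu0
    refine ⟨c, ?_, by omega⟩
    intro x hx
    rw [List.mem_append, List.mem_singleton] at hx
    rcases hx with hx | hx
    · exact hc x hx
    · subst hx
      intro i j hi hj
      have h1 : v i ≠ 0 := (hw i hi).resolve_left (fun h => h (hu0 i))
      have h2 : v j ≠ 0 := (hw j hj).resolve_left (fun h => h (hu0 j))
      exact hcv i j h1 h2

theorem inv1_smul {vals : List (Fin n → ℂ)} {a : ℕ} (h : Inv1 vals a) {u : Fin n → ℂ} (t : ℂ)
    (hu : u ∈ vals ∨ u = 0) : Inv1 (vals ++ [t • u]) a := by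
  obtain ⟨c, hc, hcard⟩ := h
  have hcu : Mono c u := by
    rcases hu with hu | hu
    · exact hc u hu
    · rw [hu]; exact mono_zero c
  refine ⟨c, ?_, hcard⟩
  intro x hx
  rw [List.mem_append, List.mem_singleton] at hx
  rcases hx with hx | hx
  · exact hc x hx
  · subst hx
    intro i j hi hj
    have h1 : u i ≠ 0 := fun h0 => hi (by simp [h0])
    have h2 : u j ≠ 0 := fun h0 => hj (by simp [h0])
    exact hcu i j h1 h2

theorem inv1_full {vals : List (Fin n → ℂ)} {a : ℕ} (h : Inv1 vals a) {v : Fin n → ℂ}
    (hv : v ∈ vals) (hf : Full v) : n ≤ a + 1 := by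
  obtain ⟨c, hc, hcard⟩ := h
  have : (univ.image c).card ≤ 1 := by
    rw [card_le_one]
    intro x hx y hy
    rw [mem_image] at hx hy
    obtain ⟨i, -, rfl⟩ := hx
    obtain ⟨j, -, rfl⟩ := hy
    exact hc v hv i j (hf i) (hf j)
  omega

/-- Normalisation of a vector at the coordinate `z`. -/
noncomputable def nrm (z : Fin n) (v : Fin n → ℂ) : Fin n → ℂ := fun k => v k / v z

/-- Second invariant: the number of normalised full-support values is controlled. -/
def Inv2 (z : Fin n) (vals : List (Fin n → ℂ)) (a : ℕ) : Prop :=
  ∃ T : Finset (Fin n → ℂ), (∀ v ∈ vals, Full v → nrm z v ∈ T) ∧ (T = ∅ ∨ T.card + n ≤ a + 2)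

theorem inv2_add {z : Fin n} {vals : List (Fin n → ℂ)} {a : ℕ} (h : Inv2 z vals a)
    (w : Fin n → ℂ) (h1 : Inv1 (vals ++ [w]) (a + 1)) : Inv2 z (vals ++ [w]) (a + 1) := by
  classical
  obtain ⟨T, hT, hcard⟩ := h
  by_cases hw : Full w
  · refine ⟨insert (nrm z w) T, ?_, Or.inr ?_⟩
    · intro x hx hfx
      rw [List.mem_append, List.mem_singleton] at hx
      rcases hx with hx | hx
      · exact mem_insert_of_mem (hT x hx hfx)
      · subst hx; exact mem_insert_self _ _
    · rcases hcard with rfl | hcard
      · have := inv1_full h1 (v := w) (by simp) hw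
        simp
        omega
      · have := card_insert_le (nrm z w) T
        omega
  · refine ⟨T, ?_, ?_⟩
    · intro x hx hfx
      rw [List.mem_append, List.mem_singleton] at hx
      rcases hx with hx | hx
      · exact hT x hx hfx
      · subst hx; exact absurd hfx hw
    · rcases hcard with h0 | hcard
      · exact Or.inl h0
      · right; omega

theorem inv2_smul {z : Fin n} {vals : List (Fin n → ℂ)} {a : ℕ} (h : Inv2 z vals a)
    {u : Fin n → ℂ} (t : ℂ) (hu : u ∈ vals ∨ u = 0) : Inv2 z (vals ++ [t • u]) a := by
  obtain ⟨T, hT, hcard⟩ := h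
  refine ⟨T, ?_, hcard⟩
  intro x hx hfx
  rw [List.mem_append, List.mem_singleton] at hx
  rcases hx with hx | hx
  · exact hT x hx hfx
  · subst hx
    have ht : t ≠ 0 := by
      intro h0
      exact hfx z (by simp [h0])
    have hfu : Full u := by
      intro k h0
      exact hfx k (by simp [h0])
    have humem : u ∈ vals := by
      rcases hu with hu | hu
      · exact hu
      · exact absurd (by rw [hu]; rfl) (hfu z)
    have : nrm z (t • u) = nrm z u := by
      funext k
      simp only [nrm, Pi.smul_apply, smul_eq_mul]
      rw [mul_div_mul_left _ _ ht]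
    rw [this]
    exact hT u humem hfu

theorem inv_run {z : Fin n} (C : List Gate) (vals : List (Fin n → ℂ)) (a : ℕ)
    (h1 : Inv1 vals a) (h2 : Inv2 z vals a) :
    Inv1 (run C vals) (a + addCount C) ∧ Inv2 z (run C vals) (a + addCount C) := by
  induction C generalizing vals a with
  | nil => exact ⟨h1, h2⟩
  | cons g C ih =>
    cases g with
    | add i j =>
      have h1' : Inv1 (vals ++ [(Gate.add i j).eval vals]) (a + 1) := by
        apply inv1_add h1 (getD_mem_or_zero vals i) (getD_mem_or_zero vals j)
        intro k hk
        by_contra hcon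
        push Not at hcon
        apply hk
        simp only [Gate.eval, Pi.add_apply, hcon.1, hcon.2, add_zero]
      have h2' := inv2_add h2 _ h1'
      have := ih _ _ h1' h2'
      simp only [run, addCount]
      rw [show a + (addCount C + 1) = a + 1 + addCount C by omega]
      exact this
    | sub i j =>
      have h1' : Inv1 (vals ++ [(Gate.sub i j).eval vals]) (a + 1) := by
        apply inv1_add h1 (getD_mem_or_zero vals i) (getD_mem_or_zero vals j)
        intro k hk
        by_contra hcon
        push Not at hcon
        apply hk
        simp only [Gate.eval, Pi.sub_apply, hcon.1, hcon.2, sub_zero]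
      have h2' := inv2_add h2 _ h1'
      have := ih _ _ h1' h2'
      simp only [run, addCount]
      rw [show a + (addCount C + 1) = a + 1 + addCount C by omega]
      exact this
    | smul t i =>
      have h1' : Inv1 (vals ++ [(Gate.smul t i).eval vals]) a :=
        inv1_smul h1 t (getD_mem_or_zero vals i)
      have h2' : Inv2 z (vals ++ [(Gate.smul t i).eval vals]) a :=
        inv2_smul h2 t (getD_mem_or_zero vals i)
      exact ih _ _ h1' h2'

/-- The list of the coordinate forms. -/
noncomputable def basisList (n : ℕ) : List (Fin n → ℂ) := List.ofFn fun k => Pi.single k (1 : ℂ)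

theorem inv1_basis : Inv1 (basisList n) 0 := by
  refine ⟨id, ?_, by simp⟩
  intro v hv i j hi hj
  rw [basisList, List.mem_ofFn] at hv
  obtain ⟨k, rfl⟩ := hv
  have h1 : i = k := by
    by_contra h
    exact hi (Pi.single_eq_of_ne h _)
  have h2 : j = k := by
    by_contra h
    exact hj (Pi.single_eq_of_ne h _)
  simp [h1, h2]

theorem inv2_basis (z : Fin n) (hn : 2 ≤ n) : Inv2 z (basisList n) 0 := by
  refine ⟨∅, ?_, Or.inl rfl⟩
  intro v hv hf
  exfalso
  rw [basisList, List.mem_ofFn] at hv
  obtain ⟨k, rfl⟩ := hv
  obtain ⟨l, hl⟩ : ∃ l : Fin n, l ≠ k := by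
    by_cases hk : (k : ℕ) = 0
    · exact ⟨⟨1, by omega⟩, fun h => by
        have := congrArg Fin.val h
        simp at this
        omega⟩
    · exact ⟨⟨0, by omega⟩, fun h => by
        have := congrArg Fin.val h
        simp at this
        omega⟩
  exact hf l (Pi.single_eq_of_ne hl _)

/-- If the formal run of a circuit contains `n` distinct full-support vectors which are normalised
at `z`, the circuit has at least `2 n - 2` additions and subtractions. -/
theorem two_mul_le_addCount (hn : 2 ≤ n) (z : Fin n) (C : List Gate) (r : Fin n → Fin n → ℂ)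
    (hr : ∀ j, r j ∈ run C (basisList n)) (hfull : ∀ j, Full (r j)) (hz : ∀ j, r j z = 1)
    (hinj : Function.Injective r) : 2 * n ≤ addCount C + 2 := by
  obtain ⟨-, T, hT, hcard⟩ := inv_run (z := z) C (basisList n) 0 inv1_basis (inv2_basis z hn)
  have hmem : ∀ j, r j ∈ T := by
    intro j
    have := hT (r j) (hr j) (hfull j)
    have h2 : nrm z (r j) = r j := by
      funext k
      simp [nrm, hz j]
    rwa [h2] at this
  have hle : n ≤ T.card := by
    classical
    have h1 : (univ.image r).card = n := by
      rw [card_image_of_injective _ hinj]; simp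
    have h2 : univ.image r ⊆ T := by
      intro x hx
      rw [mem_image] at hx
      obtain ⟨j, -, rfl⟩ := hx
      exact hmem j
    have := card_le_card h2
    omega
  rcases hcard with h0 | hcard
  · rw [h0] at hle
    simp at hle
    omega
  · omega

end additive

end Vale.Agent.P344
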