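import Mathlib

/-!
# Linear circuits for the discrete Fourier transform (P344): definitions
-/

namespace Vale.Agent.P344

/-- A gate of a linear circuit.  The natural numbers are addresses of previously available
values: addresses `0, ..., n-1` are the inputs, address `n + i` is the value of the `i`-th gate. -/
inductive Gate : Type
  | add (u v : ℕ) : Gate
  | sub (u v : ℕ) : Gate
  | smul (c : ℂ) (u : ℕ) : Gate

/-- The value computed by a gate from the list `vals` of the values available so far.
An address beyond the end of the list reads as the constant `0`. -/
def Gate.eval {M : Type*} [AddCommGroup M] [Module ℂ M] (vals : List M) : Gate → M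
  | Gate.add u v => vals.getD u 0 + vals.getD v 0
  | Gate.sub u v => vals.getD u 0 - vals.getD v 0
  | Gate.smul c u => c • vals.getD u 0

/-- Run a circuit (a list of gates): each gate appends its value to the list of available values. -/
def run {M : Type*} [AddCommGroup M] [Module ℂ M] : List Gate → List M → List M
  | [], vals => vals
  | g :: C, vals => run C (vals ++ [g.eval vals])

/-- The circuit `C` computes the unnormalized discrete Fourier transform `F_n`: there are designated
output addresses such that for every input `x` the `j`-th output is `∑ k, ζ_n ^ (j k) x_k`,
with `ζ_n = exp (2 π i / n)`. -/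
def Computes (n : ℕ) (C : List Gate) : Prop :=
  ∃ out : Fin n → ℕ, ∀ (x : Fin n → ℂ) (j : Fin n),
    (run C (List.ofFn x)).getD (out j) 0 =
      ∑ k : Fin n, Complex.exp (2 * Real.pi * Complex.I / n) ^ ((j : ℕ) * (k : ℕ)) * x k

/-- Number of addition and subtraction gates. -/
def addCount : List Gate → ℕ
  | [] => 0
  | Gate.add _ _ :: C => addCount C + 1
  | Gate.sub _ _ :: C => addCount C + 1
  | Gate.smul _ _ :: C => addCount C

/-- Number of scalar multiplication gates. -/
def smulCount : List Gate → ℕ
  | [] => 0
  | Gate.add _ _ :: C => smulCount C
  | Gate.sub _ _ :: C => smulCount C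
  | Gate.smul _ _ :: C => smulCount C + 1

end Vale.Agent.P344
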