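import Vale.Agent.Lib.P344.Main

/-!
# P344: a stronger additive bound by elimination of variables
-/

namespace Vale.Agent.P344

open Finset
open scoped Classical

variable {n : ℕ}

/-- `1` if the gate is an addition or subtraction both of whose operands are nonzero. -/
noncomputable def Gate.nt (vals : List (Fin n → ℂ)) : Gate → ℕ
  | Gate.add i j => if vals.getD i 0 ≠ 0 ∧ vals.getD j 0 ≠ 0 then 1 else 0
  | Gate.sub i j => if vals.getD i 0 ≠ 0 ∧ vals.getD j 0 ≠ 0 then 1 else 0
  | Gate.smul _ _ => 0

/-- Number of additions and subtractions with two nonzero operands in the run from `vals`. -/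
noncomputable def ntCount : List Gate → List (Fin n → ℂ) → ℕ
  | [], _ => 0
  | g :: C, vals => g.nt vals + ntCount C (vals ++ [g.eval vals])

theorem gate_cases (g : Gate) (vals : List (Fin n → ℂ)) :
    (∃ (u v : Fin n → ℂ) (e : ℂ), e ≠ 0 ∧ (u ∈ vals ∨ u = 0) ∧ (v ∈ vals ∨ v = 0) ∧
      g.eval vals = u + e • v ∧
      (g.nt vals = if u ≠ 0 ∧ v ≠ 0 then 1 else 0) ∧
      (∀ f : (Fin n → ℂ) →ₗ[ℂ] (Fin n → ℂ),
        g.nt (vals.map f) = if f u ≠ 0 ∧ f v ≠ 0 then 1 else 0)) ∨
    (∃ (u : Fin n → ℂ) (t : ℂ), (u ∈ vals ∨ u = 0) ∧ g.eval vals = t • u ∧ g.nt vals = 0 ∧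
      (∀ f : (Fin n → ℂ) →ₗ[ℂ] (Fin n → ℂ), g.nt (vals.map f) = 0)) := by
  cases g with
  | add i j =>
    left
    refine ⟨vals.getD i 0, vals.getD j 0, 1, one_ne_zero, getD_mem_or_zero _ _,
      getD_mem_or_zero _ _, ?_, rfl, ?_⟩
    · simp only [Gate.eval, one_smul]
    · intro f
      simp only [Gate.nt, getD_map_zero]
  | sub i j =>
    left
    refine ⟨vals.getD i 0, vals.getD j 0, -1, by norm_num, getD_mem_or_zero _ _,
      getD_mem_or_zero _ _, ?_, rfl, ?_⟩
    · simp only [Gate.eval, neg_smul, one_smul, sub_eq_add_neg]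
    · intro f
      simp only [Gate.nt, getD_map_zero]
  | smul t i =>
    right
    exact ⟨vals.getD i 0, t, getD_mem_or_zero _ _, rfl, rfl, fun _ => rfl⟩

theorem nt_le_addCount (g : Gate) (vals : List (Fin n → ℂ)) : g.nt vals ≤ addCount [g] := by
  cases g <;> simp only [Gate.nt, addCount] <;> (try split_ifs) <;> omega

theorem addCount_cons (g : Gate) (C : List Gate) : addCount (g :: C) = addCount [g] + addCount C := by
  cases g <;> simp only [addCount] <;> omega

theorem ntCount_le_addCount (C : List Gate) (vals : List (Fin n → ℂ)) :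
    ntCount C vals ≤ addCount C := by
  induction C generalizing vals with
  | nil => exact le_refl _
  | cons g C ih =>
    rw [addCount_cons]
    exact Nat.add_le_add (nt_le_addCount g vals) (ih _)

theorem run_append {M : Type*} [AddCommGroup M] [Module ℂ M] (C₁ C₂ : List Gate) (vals : List M) :
    run (C₁ ++ C₂) vals = run C₂ (run C₁ vals) := by
  induction C₁ generalizing vals with
  | nil => rfl
  | cons g C ih => exact ih _

theorem ntCount_append (C₁ C₂ : List Gate) (vals : List (Fin n → ℂ)) :
    ntCount (C₁ ++ C₂) vals = ntCount C₁ vals + ntCount C₂ (run C₁ vals) := by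
  induction C₁ generalizing vals with
  | nil => simp [ntCount, run]
  | cons g C ih =>
    simp only [List.cons_append, ntCount, run, ih, add_assoc]

theorem nt_map_le (f : (Fin n → ℂ) →ₗ[ℂ] (Fin n → ℂ)) (g : Gate) (vals : List (Fin n → ℂ)) :
    g.nt (vals.map f) ≤ g.nt vals := by
  rcases gate_cases g vals with ⟨u, v, e, -, -, -, -, h1, h2⟩ | ⟨u, t, -, -, h1, h2⟩
  · rw [h1, h2 f]
    by_cases h : f u ≠ 0 ∧ f v ≠ 0
    · have hu : u ≠ 0 := fun h0 => h.1 (by rw [h0, map_zero])
      have hv : v ≠ 0 := fun h0 => h.2 (by rw [h0, map_zero])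
      rw [if_pos h, if_pos ⟨hu, hv⟩]
    · rw [if_neg h]; exact Nat.zero_le _
  · rw [h2 f]; exact Nat.zero_le _

theorem map_append_eval (f : (Fin n → ℂ) →ₗ[ℂ] (Fin n → ℂ)) (g : Gate) (vals : List (Fin n → ℂ)) :
    vals.map f ++ [g.eval (vals.map f)] = (vals ++ [g.eval vals]).map f := by
  rw [List.map_append, eval_map]; rfl

theorem ntCount_map_le (f : (Fin n → ℂ) →ₗ[ℂ] (Fin n → ℂ)) (C : List Gate)
    (vals : List (Fin n → ℂ)) : ntCount C (vals.map f) ≤ ntCount C vals := by
  induction C generalizing vals with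
  | nil => exact le_refl _
  | cons g C ih =>
    simp only [ntCount]
    rw [map_append_eval]
    exact Nat.add_le_add (nt_map_le f g vals) (ih _)

/-! ### The two invariants, relative to a set `S` of live variables -/

/-- All coordinates in `S` are nonzero. -/
def FullOn (S : Finset (Fin n)) (v : Fin n → ℂ) : Prop := ∀ k ∈ S, v k ≠ 0

/-- First invariant, relative to `S`. -/
def InvA (S : Finset (Fin n)) (vals : List (Fin n → ℂ)) (a : ℕ) : Prop :=
  ∃ c : Fin n → Fin n, (∀ v ∈ vals, Mono c v) ∧ S.card ≤ (S.image c).card + a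

theorem mono_of_mem_or_zero {c : Fin n → Fin n} {vals : List (Fin n → ℂ)}
    (hc : ∀ v ∈ vals, Mono c v) {u : Fin n → ℂ} (hu : u ∈ vals ∨ u = 0) : Mono c u := by
  rcases hu with hu | hu
  · exact hc u hu
  · rw [hu]; exact mono_zero c

theorem mono_smul {c : Fin n → Fin n} {u : Fin n → ℂ} (h : Mono c u) (t : ℂ) : Mono c (t • u) := by
  intro i j hi hj
  have h1 : u i ≠ 0 := fun h0 => hi (by simp [h0])
  have h2 : u j ≠ 0 := fun h0 => hj (by simp [h0])
  exact h i j h1 h2

theorem invA_append_of_mono {S : Finset (Fin n)} {vals : List (Fin n → ℂ)} {a : ℕ}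
    (h : InvA S vals a) {w : Fin n → ℂ} (hw : ∀ c : Fin n → Fin n, (∀ v ∈ vals, Mono c v) → Mono c w) :
    InvA S (vals ++ [w]) a := by
  obtain ⟨c, hc, hcard⟩ := h
  refine ⟨c, ?_, hcard⟩
  intro x hx
  rw [List.mem_append, List.mem_singleton] at hx
  rcases hx with hx | hx
  · exact hc x hx
  · rw [hx]; exact hw c hc

theorem invA_binary {S : Finset (Fin n)} {vals : List (Fin n → ℂ)} {a : ℕ} (h : InvA S vals a)
    {u v : Fin n → ℂ} {e : ℂ} (hu : u ∈ vals ∨ u = 0) (hv : v ∈ vals ∨ v = 0) :
    InvA S (vals ++ [u + e • v]) (a + if u ≠ 0 ∧ v ≠ 0 then 1 else 0) := by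
  by_cases hnz : u ≠ 0 ∧ v ≠ 0
  · rw [if_pos hnz]
    obtain ⟨c, hc, hcard⟩ := h
    have hcu := mono_of_mem_or_zero hc hu
    have hcv := mono_of_mem_or_zero hc hv
    obtain ⟨k, hk⟩ := Function.ne_iff.mp hnz.1
    obtain ⟨l, hl⟩ := Function.ne_iff.mp hnz.2
    simp only [Pi.zero_apply] at hk hl
    refine ⟨fun i => if c i = c l then c k else c i, ?_, ?_⟩
    · intro x hx
      rw [List.mem_append, List.mem_singleton] at hx
      rcases hx with hx | hx
      · intro i j hi hj
        have := hc x hx i j hi hj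
        simp only [this]
      · subst hx
        have key : ∀ i, (u + e • v) i ≠ 0 → (if c i = c l then c k else c i) = c k := by
          intro i hi
          by_cases h1 : u i ≠ 0
          · have : c i = c k := hcu i k h1 hk
            rw [this]
            split_ifs <;> rfl
          · have h2 : v i ≠ 0 := by
              intro h0
              apply hi
              rw [not_not] at h1
              simp [h1, h0]
            have : c i = c l := hcv i l h2 hl
            rw [if_pos this]
        intro i j hi hj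
        simp only [key i hi, key j hj]
    · have hsub : S.image c ⊆ insert (c l) (S.image fun i => if c i = c l then c k else c i) := by
        intro y hy
        rw [mem_image] at hy
        obtain ⟨i, hiS, rfl⟩ := hy
        by_cases hi : c i = c l
        · rw [hi]; exact mem_insert_self _ _
        · apply mem_insert_of_mem
          rw [mem_image]
          exact ⟨i, hiS, by rw [if_neg hi]⟩
      have h1 := card_le_card hsub
      have h2 := card_insert_le (c l) (S.image fun i => if c i = c l then c k else c i)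
      omega
  · rw [if_neg hnz, add_zero]
    apply invA_append_of_mono h
    intro c hc
    by_cases hu0 : u = 0
    · rw [hu0, zero_add]
      exact mono_smul (mono_of_mem_or_zero hc hv) e
    · have hv0 : v = 0 := by
        by_contra hv0
        exact hnz ⟨hu0, hv0⟩
      rw [hv0, smul_zero, add_zero]
      exact mono_of_mem_or_zero hc hu

theorem invA_full {S : Finset (Fin n)} {vals : List (Fin n → ℂ)} {a : ℕ} (h : InvA S vals a)
    {v : Fin n → ℂ} (hv : v ∈ vals) (hf : FullOn S v) : S.card ≤ a + 1 := by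
  obtain ⟨c, hc, hcard⟩ := h
  have : (S.image c).card ≤ 1 := by
    rw [card_le_one]
    intro x hx y hy
    rw [mem_image] at hx hy
    obtain ⟨i, hi, rfl⟩ := hx
    obtain ⟨j, hj, rfl⟩ := hy
    exact hc v hv i j (hf i hi) (hf j hj)
  omega

/-- Second invariant, relative to `S`. -/
def InvB (S : Finset (Fin n)) (z : Fin n) (vals : List (Fin n → ℂ)) (a : ℕ) : Prop :=
  ∃ T : Finset (Fin n → ℂ), (∀ v ∈ vals, FullOn S v → nrm z v ∈ T) ∧
    (T = ∅ ∨ T.card + S.card ≤ a + 2)

theorem invB_smul {S : Finset (Fin n)} {z : Fin n} (hz : z ∈ S) {vals : List (Fin n → ℂ)} {a : ℕ}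
    (h : InvB S z vals a) {u : Fin n → ℂ} (t : ℂ) (hu : u ∈ vals ∨ u = 0) :
    InvB S z (vals ++ [t • u]) a := by
  obtain ⟨T, hT, hcard⟩ := h
  refine ⟨T, ?_, hcard⟩
  intro x hx hfx
  rw [List.mem_append, List.mem_singleton] at hx
  rcases hx with hx | hx
  · exact hT x hx hfx
  · subst hx
    have ht : t ≠ 0 := by
      intro h0
      exact hfx z hz (by simp [h0])
    have hfu : FullOn S u := by
      intro k hk h0
      exact hfx k hk (by simp [h0])
    have humem : u ∈ vals := by
      rcases hu with hu | hu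
      · exact hu
      · exact absurd (by rw [hu]; rfl) (hfu z hz)
    have : nrm z (t • u) = nrm z u := by
      funext k
      simp only [nrm, Pi.smul_apply, smul_eq_mul]
      rw [mul_div_mul_left _ _ ht]
    rw [this]
    exact hT u humem hfu

theorem invB_binary {S : Finset (Fin n)} {z : Fin n} (hz : z ∈ S) {vals : List (Fin n → ℂ)} {a : ℕ}
    (h : InvB S z vals a) {u v : Fin n → ℂ} {e : ℂ} (hu : u ∈ vals ∨ u = 0) (hv : v ∈ vals ∨ v = 0)
    (hA : InvA S (vals ++ [u + e • v]) (a + if u ≠ 0 ∧ v ≠ 0 then 1 else 0)) :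
    InvB S z (vals ++ [u + e • v]) (a + if u ≠ 0 ∧ v ≠ 0 then 1 else 0) := by
  by_cases hnz : u ≠ 0 ∧ v ≠ 0
  · rw [if_pos hnz] at hA ⊢
    obtain ⟨T, hT, hcard⟩ := h
    by_cases hw : FullOn S (u + e • v)
    · refine ⟨insert (nrm z (u + e • v)) T, ?_, Or.inr ?_⟩
      · intro x hx hfx
        rw [List.mem_append, List.mem_singleton] at hx
        rcases hx with hx | hx
        · exact mem_insert_of_mem (hT x hx hfx)
        · subst hx; exact mem_insert_self _ _
      · rcases hcard with rfl | hcard
        · have := invA_full hA (v := u + e • v) (by simp) hw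
          simp
          omega
        · have := card_insert_le (nrm z (u + e • v)) T
          omega
    · refine ⟨T, ?_, ?_⟩
      · intro x hx hfx
        rw [List.mem_append, List.mem_singleton] at hx
        rcases hx with hx | hx
        · exact hT x hx hfx
        · subst hx; exact absurd hfx hw
      · rcases hcard with h0 | hcard
        · exact Or.inl h0
        · right; omega
  · rw [if_neg hnz, add_zero]
    by_cases hu0 : u = 0
    · rw [hu0, zero_add]
      exact invB_smul hz h e hv
    · have hv0 : v = 0 := by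
        by_contra hv0
        exact hnz ⟨hu0, hv0⟩
      rw [hv0, smul_zero, add_zero]
      have := invB_smul hz h 1 hu
      rwa [one_smul] at this

theorem invAB_run {S : Finset (Fin n)} {z : Fin n} (hz : z ∈ S) (C : List Gate)
    (vals : List (Fin n → ℂ)) (a : ℕ) (h1 : InvA S vals a) (h2 : InvB S z vals a) :
    InvA S (run C vals) (a + ntCount C vals) ∧ InvB S z (run C vals) (a + ntCount C vals) := by
  induction C generalizing vals a with
  | nil => exact ⟨h1, h2⟩
  | cons g C ih =>
    simp only [run, ntCount]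
    rw [← add_assoc]
    rcases gate_cases g vals with ⟨u, v, e, -, hu, hv, hev, hnt, -⟩ | ⟨u, t, hu, hev, hnt, -⟩
    · rw [hev, hnt]
      have hA := invA_binary (e := e) h1 hu hv
      exact ih _ _ hA (invB_binary hz h2 hu hv hA)
    · rw [hev, hnt, add_zero]
      refine ih _ _ ?_ (invB_smul hz h2 t hu)
      apply invA_append_of_mono h1
      intro c hc
      exact mono_smul (mono_of_mem_or_zero hc hu) t

end Vale.Agent.P344
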