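import Vale.Agent.Lib.P344.Elim

/-!
# P344: restriction to a set of live variables and the elimination step
-/

namespace Vale.Agent.P344

open Finset
open scoped Classical

variable {n : ℕ}

/-- Zero out the coordinates outside `S`. -/
noncomputable def proj (S : Finset (Fin n)) : (Fin n → ℂ) →ₗ[ℂ] (Fin n → ℂ) where
  toFun v := fun k => if k ∈ S then v k else 0
  map_add' := by
    intro a b
    funext k
    by_cases h : k ∈ S <;> simp [h]
  map_smul' := by
    intro t a
    funext k
    by_cases h : k ∈ S <;> simp [h]

theorem proj_apply (S : Finset (Fin n)) (v : Fin n → ℂ) (k : Fin n) :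
    proj S v k = if k ∈ S then v k else 0 := rfl

/-- The coordinate forms of the live variables, the other inputs being set to zero. -/
noncomputable def basisS (S : Finset (Fin n)) : List (Fin n → ℂ) := (basisList n).map (proj S)

theorem run_basisS (S : Finset (Fin n)) (C : List Gate) :
    run C (basisS S) = (run C (basisList n)).map (proj S) := run_map _ _ _

/-- Zero out the coordinate `k`. -/
noncomputable def kill (k : Fin n) : (Fin n → ℂ) →ₗ[ℂ] (Fin n → ℂ) := proj (univ.erase k)

theorem kill_apply (k : Fin n) (v : Fin n → ℂ) (i : Fin n) :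
    kill k v i = if i = k then 0 else v i := by
  rw [kill, proj_apply]
  by_cases h : i = k <;> simp [h]

theorem basisS_erase (S : Finset (Fin n)) (k : Fin n) :
    (basisS S).map (kill k) = basisS (S.erase k) := by
  rw [basisS, basisS, List.map_map]
  apply List.map_congr_left
  intro v _
  funext i
  simp only [Function.comp, kill_apply, proj_apply, mem_erase]
  by_cases h : i = k <;> simp [h]

theorem mem_basisS {S : Finset (Fin n)} {v : Fin n → ℂ} (hv : v ∈ basisS S) :
    ∃ k, v = proj S (Pi.single k 1) := by
  rw [basisS, List.mem_map] at hv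
  obtain ⟨x, hx, rfl⟩ := hv
  rw [basisList, List.mem_ofFn] at hx
  obtain ⟨k, rfl⟩ := hx
  exact ⟨k, rfl⟩

theorem proj_single_apply_of_ne (S : Finset (Fin n)) {k i : Fin n} (h : i ≠ k) :
    proj S (Pi.single k 1) i = 0 := by
  rw [proj_apply, Pi.single_eq_of_ne h]
  simp

theorem invA_basisS (S : Finset (Fin n)) : InvA S (basisS S) 0 := by
  refine ⟨id, ?_, by simp⟩
  intro v hv i j hi hj
  obtain ⟨k, rfl⟩ := mem_basisS hv
  have h1 : i = k := by
    by_contra h
    exact hi (proj_single_apply_of_ne S h)
  have h2 : j = k := by
    by_contra h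
    exact hj (proj_single_apply_of_ne S h)
  simp [h1, h2]

theorem exists_ne_of_two_le {S : Finset (Fin n)} (hS : 2 ≤ S.card) (k : Fin n) :
    ∃ l ∈ S, l ≠ k := by
  by_contra hcon
  push Not at hcon
  have : S ⊆ {k} := by
    intro x hx
    rw [mem_singleton]
    exact hcon x hx
  have := card_le_card this
  simp at this
  omega

theorem invB_basisS {S : Finset (Fin n)} (hS : 2 ≤ S.card) (z : Fin n) : InvB S z (basisS S) 0 := by
  refine ⟨∅, ?_, Or.inl rfl⟩
  intro v hv hf
  exfalso
  obtain ⟨k, rfl⟩ := mem_basisS hv
  obtain ⟨l, hl, hlk⟩ := exists_ne_of_two_le hS k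
  exact hf l hl (proj_single_apply_of_ne S hlk)

/-- The bound for a fixed set of live variables. -/
theorem claim_one {S : Finset (Fin n)} (hS : 2 ≤ S.card) {z : Fin n} (hz : z ∈ S) (C : List Gate)
    (r : Fin n → Fin n → ℂ) (hr : ∀ j, r j ∈ run C (basisS S)) (hfull : ∀ j, FullOn S (r j))
    (hinj : Function.Injective fun j => nrm z (r j)) :
    n + S.card ≤ ntCount C (basisS S) + 2 := by
  obtain ⟨-, T, hT, hcard⟩ := invAB_run hz C (basisS S) 0 (invA_basisS S) (invB_basisS hS z)
  have hle : n ≤ T.card := by
    have h1 : (univ.image fun j => nrm z (r j)).card = n := by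
      rw [card_image_of_injective _ hinj]; simp
    have h2 : (univ.image fun j => nrm z (r j)) ⊆ T := by
      intro x hx
      rw [mem_image] at hx
      obtain ⟨j, -, rfl⟩ := hx
      exact hT (r j) (hr j) (hfull j)
    have := card_le_card h2
    omega
  have hSn : S.card ≤ n := by simpa using card_le_univ S
  rcases hcard with h0 | hcard
  · rw [h0] at hle
    simp at hle
    omega
  · omega

/-! ### The elimination step -/

/-- The support of `w` is contained in `{k}`. -/
def PureAt (k : Fin n) (w : Fin n → ℂ) : Prop := ∀ i, i ≠ k → w i = 0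

/-- The support of `w` has at most one element. -/
def Pure (w : Fin n → ℂ) : Prop := ∃ k, PureAt k w

theorem pureAt_zero (k : Fin n) : PureAt k 0 := fun _ _ => rfl

theorem pureAt_smul {k : Fin n} {w : Fin n → ℂ} (h : PureAt k w) (t : ℂ) : PureAt k (t • w) := by
  intro i hi
  simp [h i hi]

theorem pureAt_add {k : Fin n} {u v : Fin n → ℂ} (hu : PureAt k u) (hv : PureAt k v) :
    PureAt k (u + v) := by
  intro i hi
  simp [hu i hi, hv i hi]

theorem kill_eq_zero {k : Fin n} {w : Fin n → ℂ} (h : PureAt k w) : kill k w = 0 := by
  funext i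
  rw [kill_apply]
  by_cases hi : i = k
  · simp [hi]
  · simp [hi, h i hi]

theorem exists_first (P : (Fin n → ℂ) → Prop) (C : List Gate) (vals : List (Fin n → ℂ))
    (hp : ∀ v ∈ vals, P v) (hnp : ∃ v ∈ run C vals, ¬ P v) :
    ∃ C₁ g C₂, C = C₁ ++ g :: C₂ ∧ (∀ v ∈ run C₁ vals, P v) ∧ ¬ P (g.eval (run C₁ vals)) := by
  induction C generalizing vals with
  | nil =>
    obtain ⟨v, hv, hv'⟩ := hnp
    exact absurd (hp v hv) hv'
  | cons g C ih =>
    by_cases hg : P (g.eval vals)
    · have hp' : ∀ v ∈ vals ++ [g.eval vals], P v := by
        intro v hv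
        rw [List.mem_append, List.mem_singleton] at hv
        rcases hv with hv | hv
        · exact hp v hv
        · rw [hv]; exact hg
      obtain ⟨C₁, g', C₂, h1, h2, h3⟩ := ih _ hp' hnp
      exact ⟨g :: C₁, g', C₂, by rw [h1]; rfl, h2, h3⟩
    · exact ⟨[], g, C, rfl, hp, hg⟩

/-- The classes of values in the elimination argument. -/
def Cls (k l : Fin n) (α β : ℂ) (x : Fin n → ℂ) : Prop :=
  PureAt k x ∨ PureAt l x ∨ x k * β = x l * α

theorem cls_smul {k l : Fin n} {α β : ℂ} {x : Fin n → ℂ} (h : Cls k l α β x) (t : ℂ) :
    Cls k l α β (t • x) := by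
  rcases h with h | h | h
  · exact Or.inl (pureAt_smul h t)
  · exact Or.inr (Or.inl (pureAt_smul h t))
  · refine Or.inr (Or.inr ?_)
    simp only [Pi.smul_apply, smul_eq_mul, mul_assoc, h]

theorem cls_of_mem_or_zero {k l : Fin n} {α β : ℂ} {vals : List (Fin n → ℂ)}
    (h : ∀ x ∈ vals, Cls k l α β x) {u : Fin n → ℂ} (hu : u ∈ vals ∨ u = 0) : Cls k l α β u := by
  rcases hu with hu | hu
  · exact h u hu
  · rw [hu]; exact Or.inl (pureAt_zero k)

theorem cls_append {k l : Fin n} {α β : ℂ} {vals : List (Fin n → ℂ)}
    (h : ∀ x ∈ vals, Cls k l α β x) {w : Fin n → ℂ} (hw : Cls k l α β w) :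
    ∀ x ∈ vals ++ [w], Cls k l α β x := by
  intro x hx
  rw [List.mem_append, List.mem_singleton] at hx
  rcases hx with hx | hx
  · exact h x hx
  · rw [hx]; exact hw

theorem cls_run (k l : Fin n) (α β : ℂ) (C : List Gate) (vals : List (Fin n → ℂ))
    (h : ∀ x ∈ vals, Cls k l α β x) :
    (∀ x ∈ run C vals, Cls k l α β x) ∨
      ntCount C (vals.map (kill k)) + 1 ≤ ntCount C vals ∨
      ntCount C (vals.map (kill l)) + 1 ≤ ntCount C vals := by
  induction C generalizing vals with
  | nil => exact Or.inl h
  | cons g C ih =>
    simp only [run, ntCount]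
    rw [map_append_eval, map_append_eval]
    have hk := nt_map_le (kill k) g vals
    have hl := nt_map_le (kill l) g vals
    have step : Cls k l α β (g.eval vals) →
        ((∀ x ∈ run C (vals ++ [g.eval vals]), Cls k l α β x) ∨
        g.nt (vals.map (kill k)) + ntCount C ((vals ++ [g.eval vals]).map (kill k)) + 1 ≤
          g.nt vals + ntCount C (vals ++ [g.eval vals]) ∨
        g.nt (vals.map (kill l)) + ntCount C ((vals ++ [g.eval vals]).map (kill l)) + 1 ≤
          g.nt vals + ntCount C (vals ++ [g.eval vals])) := by
      intro hw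
      rcases ih _ (cls_append h hw) with h1 | h1 | h1
      · exact Or.inl h1
      · right; left; omega
      · right; right; omega
    rcases gate_cases g vals with ⟨u, v, e, -, hu, hv, hev, hnt, hntf⟩ | ⟨u, t, hu, hev, -, -⟩
    · have hcu := cls_of_mem_or_zero h hu
      have hcv := cls_of_mem_or_zero h hv
      by_cases hnz : u ≠ 0 ∧ v ≠ 0
      · have hnt1 : g.nt vals = 1 := by rw [hnt, if_pos hnz]
        have hmk := ntCount_map_le (kill k) C (vals ++ [g.eval vals])
        have hml := ntCount_map_le (kill l) C (vals ++ [g.eval vals])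
        by_cases hpk : PureAt k u ∨ PureAt k v
        · right; left
          have : g.nt (vals.map (kill k)) = 0 := by
            rw [hntf, if_neg]
            rintro ⟨h1, h2⟩
            rcases hpk with hp | hp
            · exact h1 (kill_eq_zero hp)
            · exact h2 (kill_eq_zero hp)
          omega
        · by_cases hpl : PureAt l u ∨ PureAt l v
          · right; right
            have : g.nt (vals.map (kill l)) = 0 := by
              rw [hntf, if_neg]
              rintro ⟨h1, h2⟩
              rcases hpl with hp | hp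
              · exact h1 (kill_eq_zero hp)
              · exact h2 (kill_eq_zero hp)
            omega
          · push Not at hpk hpl
            have h3u : u k * β = u l * α := by
              rcases hcu with h1 | h1 | h1
              · exact absurd h1 hpk.1
              · exact absurd h1 hpl.1
              · exact h1
            have h3v : v k * β = v l * α := by
              rcases hcv with h1 | h1 | h1
              · exact absurd h1 hpk.2
              · exact absurd h1 hpl.2
              · exact h1
            apply step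
            rw [hev]
            refine Or.inr (Or.inr ?_)
            simp only [Pi.add_apply, Pi.smul_apply, smul_eq_mul]
            rw [add_mul, add_mul, h3u, mul_assoc, h3v, mul_assoc]
      · apply step
        rw [hev]
        by_cases hu0 : u = 0
        · rw [hu0, zero_add]
          exact cls_smul hcv e
        · have hv0 : v = 0 := by
            by_contra hv0
            exact hnz ⟨hu0, hv0⟩
          rw [hv0, smul_zero, add_zero]
          exact hcu
    · apply step
      rw [hev]
      exact cls_smul (cls_of_mem_or_zero h hu) t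

end Vale.Agent.P344
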