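import Vale.Agent.Lib.P344.Elim2

/-!
# P344: the elimination step for the Fourier matrix and the final bound
-/

namespace Vale.Agent.P344

open Finset
open scoped Classical

variable {n : ℕ}

theorem pure_of_mem_or_zero (k0 : Fin n) {vals : List (Fin n → ℂ)} (hp : ∀ v ∈ vals, Pure v)
    {u : Fin n → ℂ} (hu : u ∈ vals ∨ u = 0) : Pure u := by
  rcases hu with hu | hu
  · exact hp u hu
  · rw [hu]; exact ⟨k0, pureAt_zero k0⟩

theorem pure_smul {u : Fin n → ℂ} (h : Pure u) (t : ℂ) : Pure (t • u) := by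
  obtain ⟨k, hk⟩ := h
  exact ⟨k, pureAt_smul hk t⟩

theorem ne_zero_at_of_pureAt {k : Fin n} {u : Fin n → ℂ} (h : PureAt k u) (hu : u ≠ 0) :
    u k ≠ 0 := by
  intro h0
  apply hu
  funext i
  by_cases hi : i = k
  · rw [hi, h0]; rfl
  · exact h i hi

theorem nonpure_gate (k0 : Fin n) {vals : List (Fin n → ℂ)} (hp : ∀ v ∈ vals, Pure v) {g : Gate}
    (hg : ¬ Pure (g.eval vals)) :
    ∃ (u v : Fin n → ℂ) (e : ℂ) (k l : Fin n), u ∈ vals ∧ v ∈ vals ∧ g.eval vals = u + e • v ∧
      e ≠ 0 ∧ PureAt k u ∧ u k ≠ 0 ∧ PureAt l v ∧ v l ≠ 0 ∧ k ≠ l ∧ g.nt vals = 1 ∧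
      (∀ f : (Fin n → ℂ) →ₗ[ℂ] (Fin n → ℂ),
        g.nt (vals.map f) = if f u ≠ 0 ∧ f v ≠ 0 then 1 else 0) := by
  rcases gate_cases g vals with ⟨u, v, e, he, hu, hv, hev, hnt, hntf⟩ | ⟨u, t, hu, hev, -, -⟩
  · have hu0 : u ≠ 0 := by
      intro h
      apply hg
      rw [hev, h, zero_add]
      exact pure_smul (pure_of_mem_or_zero k0 hp hv) e
    have hv0 : v ≠ 0 := by
      intro h
      apply hg
      rw [hev, h, smul_zero, add_zero]
      exact pure_of_mem_or_zero k0 hp hu
    have hum := hu.resolve_right hu0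
    have hvm := hv.resolve_right hv0
    obtain ⟨k, hk⟩ := hp u hum
    obtain ⟨l, hl⟩ := hp v hvm
    refine ⟨u, v, e, k, l, hum, hvm, hev, he, hk, ne_zero_at_of_pureAt hk hu0, hl,
      ne_zero_at_of_pureAt hl hv0, ?_, ?_, hntf⟩
    · intro hkl
      apply hg
      rw [hev]
      refine ⟨k, pureAt_add hk (pureAt_smul ?_ e)⟩
      rw [hkl]; exact hl
    · rw [hnt, if_pos ⟨hu0, hv0⟩]
  · exfalso
    apply hg
    rw [hev]
    exact pure_smul (pure_of_mem_or_zero k0 hp hu) t

theorem elim_step (hn : 2 ≤ n) {S : Finset (Fin n)} (hS : 2 ≤ S.card) (C : List Gate)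
    (hrows : ∀ j, row n j ∈ run C (basisList n)) :
    ∃ k ∈ S, ntCount C (basisS (S.erase k)) + 2 ≤ ntCount C (basisS S) := by
  have hn0 : 0 < n := by omega
  have hmem : ∀ j, proj S (row n j) ∈ run C (basisS S) := by
    intro j
    rw [run_basisS]
    exact List.mem_map_of_mem (hrows j)
  have hpure0 : ∀ v ∈ basisS S, Pure v := by
    intro v hv
    obtain ⟨k, rfl⟩ := mem_basisS hv
    exact ⟨k, fun i hi => proj_single_apply_of_ne S hi⟩
  have hnp : ∃ v ∈ run C (basisS S), ¬ Pure v := by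
    refine ⟨_, hmem ⟨0, hn0⟩, ?_⟩
    rintro ⟨k, hk⟩
    obtain ⟨l, hl, hlk⟩ := exists_ne_of_two_le hS k
    have := hk l hlk
    rw [proj_apply, if_pos hl] at this
    exact row_ne_zero hn0 _ _ this
  obtain ⟨C₁, g, C₂, hC, hp1, hg⟩ := exists_first Pure C (basisS S) hpure0 hnp
  obtain ⟨u, v, e, k, l, hu, hv, hev, he, hpu, huk, hpv, hvl, hkl, hnt, hntf⟩ :=
    nonpure_gate ⟨0, hn0⟩ hp1 hg
  have hS_of : ∀ x ∈ run C₁ (basisS S), ∀ i, x i ≠ 0 → i ∈ S := by
    intro x hx i hi
    rw [run_basisS, List.mem_map] at hx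
    obtain ⟨y, -, rfl⟩ := hx
    by_contra his
    exact hi (by rw [proj_apply, if_neg his])
  have hkS := hS_of u hu k huk
  have hlS := hS_of v hv l hvl
  have hwk : (u + e • v) k = u k := by simp [hpv k hkl]
  have hwl : (u + e • v) l = e * v l := by simp [hpu l hkl.symm]
  have hwk0 : (u + e • v) k ≠ 0 := by rw [hwk]; exact huk
  have hcls : ∀ x ∈ run C₁ (basisS S) ++ [u + e • v],
      Cls k l ((u + e • v) k) ((u + e • v) l) x := by
    apply cls_append
    · intro x hx
      obtain ⟨i, hi⟩ := hp1 x hx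
      by_cases hik : i = k
      · left; rw [← hik]; exact hi
      · by_cases hil : i = l
        · right; left; rw [← hil]; exact hi
        · right; right
          rw [hi k (Ne.symm hik), hi l (Ne.symm hil)]; simp
    · right; right; ring
  have hrun : run C (basisS S) = run C₂ (run C₁ (basisS S) ++ [u + e • v]) := by
    rw [hC, run_append]
    simp only [run]
    rw [hev]
  have hcount : ntCount C (basisS S) = ntCount C₁ (basisS S) +
      (1 + ntCount C₂ (run C₁ (basisS S) ++ [u + e • v])) := by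
    rw [hC, ntCount_append]
    simp only [ntCount]
    rw [hev, hnt]
  have hcountf : ∀ f : (Fin n → ℂ) →ₗ[ℂ] (Fin n → ℂ), (f u = 0 ∨ f v = 0) →
      ntCount C ((basisS S).map f) = ntCount C₁ ((basisS S).map f) +
        ntCount C₂ ((run C₁ (basisS S) ++ [u + e • v]).map f) := by
    intro f hf
    rw [hC, ntCount_append, run_map]
    simp only [ntCount]
    rw [map_append_eval, hev, hntf, if_neg, zero_add]
    rintro ⟨h1, h2⟩
    rcases hf with hf | hf
    · exact h1 hf
    · exact h2 hf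
  rcases cls_run k l _ _ C₂ _ hcls with h1 | h1 | h1
  · exfalso
    rw [← hrun] at h1
    have key : ∀ j, row n j k * (u + e • v) l = row n j l * (u + e • v) k := by
      intro j
      rcases h1 _ (hmem j) with h2 | h2 | h2
      · exfalso
        have := h2 l hkl.symm
        rw [proj_apply, if_pos hlS] at this
        exact row_ne_zero hn0 _ _ this
      · exfalso
        have := h2 k hkl
        rw [proj_apply, if_pos hkS] at this
        exact row_ne_zero hn0 _ _ this
      · rwa [proj_apply, proj_apply, if_pos hkS, if_pos hlS] at h2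
    have k0 := key ⟨0, hn0⟩
    have k1 := key ⟨1, by omega⟩
    simp only [row, zero_mul, pow_zero, one_mul] at k0 k1
    rw [k0] at k1
    have := mul_right_cancel₀ hwk0 k1
    exact hkl (Fin.ext ((zeta_prim hn0).pow_inj k.2 l.2 this))
  · refine ⟨k, hkS, ?_⟩
    rw [← basisS_erase, hcountf (kill k) (Or.inl (kill_eq_zero hpu)), hcount]
    have := ntCount_map_le (kill k) C₁ (basisS S)
    omega
  · refine ⟨l, hlS, ?_⟩
    rw [← basisS_erase, hcountf (kill l) (Or.inr (kill_eq_zero hpv)), hcount]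
    have := ntCount_map_le (kill l) C₁ (basisS S)
    omega

theorem proper_gcd_le (hn : 0 < n) {δ : ℕ} (h0 : 0 < δ) (h1 : δ < n) :
    Nat.gcd δ n ≤ n / n.minFac := by
  obtain ⟨c, hc⟩ := Nat.gcd_dvd_right δ n
  have hg0 : 0 < Nat.gcd δ n := Nat.gcd_pos_of_pos_left _ h0
  have hgle : Nat.gcd δ n ≤ δ := Nat.le_of_dvd h0 (Nat.gcd_dvd_left _ _)
  have hc2 : 2 ≤ c := by
    by_contra hcon
    have : c = 0 ∨ c = 1 := by omega
    rcases this with rfl | rfl
    · omega
    · omega
  have hmf : n.minFac ≤ c := Nat.minFac_le_of_dvd hc2 ⟨_, by rw [mul_comm]; exact hc⟩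
  rw [Nat.le_div_iff_mul_le (Nat.minFac_pos n)]
  calc Nat.gcd δ n * n.minFac ≤ Nat.gcd δ n * c := Nat.mul_le_mul_left _ hmf
    _ = n := hc.symm

theorem nrm_row_aux (hn : 2 ≤ n) {S : Finset (Fin n)} (hS : n / n.minFac < S.card) {z : Fin n}
    (hz : z ∈ S) (j j' : Fin n) (hlt : j' < j)
    (h : nrm z (proj S (row n j)) = nrm z (proj S (row n j'))) : False := by
  have hn0 : 0 < n := by omega
  have hζ := zeta_prim hn0
  have hζ0 : zeta n ≠ 0 := hζ.ne_zero hn0.ne'
  obtain ⟨δ, hδ⟩ : ∃ δ : ℕ, (j : ℕ) = j' + δ := ⟨j - j', by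
    have : (j' : ℕ) < j := hlt
    omega⟩
  have hδ0 : 0 < δ := by
    have : (j' : ℕ) < j := hlt
    omega
  have hδn : δ < n := by
    have := j.2
    omega
  have hg0 : 0 < Nat.gcd δ n := Nat.gcd_pos_of_pos_left _ hδ0
  have hroot : ∀ k ∈ S, (zeta n ^ (k : ℕ) / zeta n ^ (z : ℕ)) ^ Nat.gcd δ n = 1 := by
    intro k hk
    have h1 := congrFun h k
    simp only [nrm, proj_apply, if_pos hk, if_pos hz, row] at h1
    have hy0 : zeta n ^ (k : ℕ) / zeta n ^ (z : ℕ) ≠ 0 :=
      div_ne_zero (pow_ne_zero _ hζ0) (pow_ne_zero _ hζ0)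
    have h2 : (zeta n ^ (k : ℕ) / zeta n ^ (z : ℕ)) ^ (j : ℕ) =
        (zeta n ^ (k : ℕ) / zeta n ^ (z : ℕ)) ^ (j' : ℕ) := by
      rw [div_pow, div_pow, ← pow_mul, ← pow_mul, ← pow_mul, ← pow_mul,
        mul_comm (k : ℕ), mul_comm (z : ℕ), mul_comm (k : ℕ), mul_comm (z : ℕ)]
      exact h1
    rw [pow_gcd_eq_one]
    constructor
    · rw [hδ, pow_add] at h2
      have h3 : (zeta n ^ (k : ℕ) / zeta n ^ (z : ℕ)) ^ (j' : ℕ) *
          (zeta n ^ (k : ℕ) / zeta n ^ (z : ℕ)) ^ δ =
          (zeta n ^ (k : ℕ) / zeta n ^ (z : ℕ)) ^ (j' : ℕ) * 1 := by rw [h2, mul_one]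
      exact mul_left_cancel₀ (pow_ne_zero _ hy0) h3
    · rw [div_pow, ← pow_mul, ← pow_mul, mul_comm (k : ℕ), mul_comm (z : ℕ), pow_mul, pow_mul,
        hζ.pow_eq_one, one_pow, one_pow, div_one]
  have hcard : S.card ≤ (Polynomial.nthRootsFinset (Nat.gcd δ n) (1 : ℂ)).card := by
    apply card_le_card_of_injOn (fun k : Fin n => zeta n ^ (k : ℕ) / zeta n ^ (z : ℕ))
    · intro k hk
      rw [mem_coe, Polynomial.mem_nthRootsFinset hg0]
      exact hroot k hk
    · intro k _ k' _ hkk
      simp only at hkk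
      have := (div_left_inj' (pow_ne_zero _ hζ0)).mp hkk
      exact Fin.ext (hζ.pow_inj k.2 k'.2 this)
  have hcard2 : (Polynomial.nthRootsFinset (Nat.gcd δ n) (1 : ℂ)).card ≤ Nat.gcd δ n := by
    rw [Polynomial.nthRootsFinset_def]
    exact le_trans (Multiset.toFinset_card_le _) (Polynomial.card_nthRoots _ _)
  have := proper_gcd_le hn0 hδ0 hδn
  omega

theorem nrm_row_injective (hn : 2 ≤ n) {S : Finset (Fin n)} (hS : n / n.minFac < S.card)
    {z : Fin n} (hz : z ∈ S) : Function.Injective fun j => nrm z (proj S (row n j)) := by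
  intro j j' h
  by_contra hne
  rcases lt_or_gt_of_ne hne with hlt | hlt
  · exact nrm_row_aux hn hS hz j' j hlt h.symm
  · exact nrm_row_aux hn hS hz j j' hlt h

theorem ntCount_bound (hn : 2 ≤ n) (C : List Gate) (hrows : ∀ j, row n j ∈ run C (basisList n)) :
    ∀ (s : ℕ) (S : Finset (Fin n)), S.card = s → n / n.minFac < s →
      n + 2 * s ≤ ntCount C (basisS S) + (n / n.minFac + 1) + 2 := by
  have hn0 : 0 < n := by omega
  have hq : 1 ≤ n / n.minFac := by
    rw [Nat.le_div_iff_mul_le (Nat.minFac_pos n), one_mul]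
    exact Nat.minFac_le hn0
  intro s
  induction s with
  | zero => intro S _ h; omega
  | succ s ih =>
    intro S hcard hlt
    have hS2 : 2 ≤ S.card := by omega
    by_cases hbase : s = n / n.minFac
    · obtain ⟨z, hz⟩ : S.Nonempty := card_pos.mp (by omega)
      have h1 := claim_one hS2 hz C (fun j => proj S (row n j))
        (fun j => by rw [run_basisS]; exact List.mem_map_of_mem (hrows j))
        (fun j k hk => by rw [proj_apply, if_pos hk]; exact row_ne_zero hn0 j k)
        (nrm_row_injective hn (by omega) hz)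
      omega
    · obtain ⟨k, hk, hstep⟩ := elim_step hn hS2 C hrows
      have h1 := ih (S.erase k) (by rw [card_erase_of_mem hk]; omega) (by omega)
      omega

theorem basisS_univ : basisS (univ : Finset (Fin n)) = basisList n := by
  rw [basisS]
  conv_rhs => rw [← List.map_id (basisList n)]
  apply List.map_congr_left
  intro v _
  funext i
  simp [proj_apply]

/-- The stronger lower bound. -/
theorem main_bound_strong (hn : 2 ≤ n) (C : List Gate) (h : Computes n C) :
    3 * n ≤ addCount C + n / n.minFac + 3 ∧ n ≤ smulCount C + n.divisors.card ∧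
      4 * n ≤ C.length + n / n.minFac + n.divisors.card + 3 := by
  have hA : 3 * n ≤ addCount C + n / n.minFac + 3 := by
    have h1 := ntCount_bound hn C (rows_mem C h) n univ (by simp)
      (Nat.div_lt_self (by omega) (Nat.minFac_prime (by omega)).one_lt)
    rw [basisS_univ] at h1
    have h2 := ntCount_le_addCount C (basisList n)
    omega
  have hB := (main_bound hn C h).2.1
  refine ⟨hA, hB, ?_⟩
  rw [length_eq_counts]
  omega

end Vale.Agent.P344
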