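import Vale.Agent.Lib.P344.Scalar

/-!
# P344: assembling the lower bound
-/

namespace Vale.Agent.P344

open Finset Polynomial

variable {n : ℕ}

theorem rat_eval_eq (hn : 0 < n) {ζ : ℂ} (hζ : IsPrimitiveRoot ζ n) (c : Fin n → ℚ) (q : ℚ)
    (k k' : ℕ) (hg : Nat.gcd n k = Nat.gcd n k')
    (h : ∑ j : Fin n, (c j : ℂ) * ζ ^ ((j : ℕ) * k) = q) :
    ∑ j : Fin n, (c j : ℂ) * ζ ^ ((j : ℕ) * k') = q := by
  set P : ℚ[X] := ∑ j : Fin n, C (c j) * X ^ (j : ℕ) - C q with hP
  have heval : ∀ z : ℂ, aeval z P = ∑ j : Fin n, (c j : ℂ) * z ^ (j : ℕ) - q := by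
    intro z
    simp [hP, map_sum]
  have hfin : IsOfFinOrder ζ := isOfFinOrder_iff_pow_eq_one.mpr ⟨n, hn, hζ.pow_eq_one⟩
  have hord : orderOf ζ = n := hζ.eq_orderOf.symm
  have ho : orderOf (ζ ^ k) = orderOf (ζ ^ k') := by
    rw [hfin.orderOf_pow, hfin.orderOf_pow, hord, hg]
  have he : 0 < orderOf (ζ ^ k) := orderOf_pos_iff.mpr hfin.pow
  have p1 : IsPrimitiveRoot (ζ ^ k) (orderOf (ζ ^ k)) := IsPrimitiveRoot.orderOf _
  have p2 : IsPrimitiveRoot (ζ ^ k') (orderOf (ζ ^ k)) := ho ▸ IsPrimitiveRoot.orderOf _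
  have m1 := cyclotomic_eq_minpoly_rat p1 he
  have m2 := cyclotomic_eq_minpoly_rat p2 he
  have hz : aeval (ζ ^ k) P = 0 := by
    rw [heval, sub_eq_zero, ← h]
    refine Finset.sum_congr rfl fun j _ => ?_
    rw [← pow_mul, mul_comm k]
  have hdvd : minpoly ℚ (ζ ^ k') ∣ P := by
    rw [← m2, m1]; exact minpoly.dvd ℚ _ hz
  obtain ⟨Q, hQ⟩ := hdvd
  have h0 : aeval (ζ ^ k') P = 0 := by rw [hQ, map_mul, minpoly.aeval, zero_mul]
  rw [heval, sub_eq_zero] at h0
  rw [← h0]
  refine Finset.sum_congr rfl fun j _ => ?_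
  rw [← pow_mul, mul_comm k']

/-- The primitive root of unity used in the transform. -/
noncomputable def zeta (n : ℕ) : ℂ := Complex.exp (2 * Real.pi * Complex.I / n)

theorem zeta_prim (hn : 0 < n) : IsPrimitiveRoot (zeta n) n :=
  Complex.isPrimitiveRoot_exp n hn.ne'

/-- The rows of the Fourier matrix. -/
noncomputable def row (n : ℕ) (j k : Fin n) : ℂ := zeta n ^ ((j : ℕ) * (k : ℕ))

theorem row_ne_zero (hn : 0 < n) (j k : Fin n) : row n j k ≠ 0 :=
  pow_ne_zero _ ((zeta_prim hn).ne_zero hn.ne')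

theorem row_injective (hn : 2 ≤ n) : Function.Injective (row n) := by
  intro j j' h
  have h1 := congrFun h ⟨1, by omega⟩
  simp only [row, mul_one] at h1
  exact Fin.ext ((zeta_prim (by omega)).pow_inj j.2 j'.2 h1)

theorem rows_mem (C : List Gate) (h : Computes n C) (j : Fin n) :
    row n j ∈ run C (basisList n) := by
  classical
  obtain ⟨out, hout⟩ := h
  have hn : 0 < n := lt_of_le_of_lt (Nat.zero_le _) j.2
  have hmap : ∀ x : Fin n → ℂ,
      (basisList n).map (Fintype.linearCombination ℂ x) = List.ofFn x := by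
    intro x
    rw [basisList, List.map_ofFn]
    congr 1
    funext k
    simp [Fintype.linearCombination_apply_single]
  have hv : (run C (basisList n)).getD (out j) 0 = row n j := by
    funext k
    have h1 := hout (Pi.single k 1) j
    rw [← hmap, run_map, getD_map_zero, Fintype.linearCombination_apply] at h1
    simp only [Pi.single_apply, smul_eq_mul, mul_ite, mul_one, mul_zero, Finset.sum_ite_eq',
      Finset.mem_univ, if_true] at h1
    rw [h1]
    rfl
  rcases getD_mem_or_zero (run C (basisList n)) (out j) with h1 | h1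
  · rwa [hv] at h1
  · exfalso
    rw [hv] at h1
    exact row_ne_zero hn j j (congrFun h1 j)

theorem linComb_row_apply (c : Fin n → ℚ) (k : Fin n) :
    Fintype.linearCombination ℚ (row n) c k =
      ∑ j : Fin n, (c j : ℂ) * zeta n ^ ((j : ℕ) * (k : ℕ)) := by
  rw [Fintype.linearCombination_apply, Finset.sum_apply]
  refine Finset.sum_congr rfl fun j _ => ?_
  rw [Pi.smul_apply, Rat.smul_def]
  rfl

theorem linComb_row_injective (hn : 0 < n) :
    Function.Injective (Fintype.linearCombination ℚ (row n)) := by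
  rw [injective_iff_map_eq_zero]
  intro c hc
  have hdet : (Matrix.vandermonde fun j : Fin n => zeta n ^ (j : ℕ)).det ≠ 0 := by
    rw [Matrix.det_vandermonde_ne_zero_iff]
    intro j j' h
    exact Fin.ext ((zeta_prim hn).pow_inj j.2 j'.2 h)
  have hvec : Matrix.vecMul (fun j => (c j : ℂ))
      (Matrix.vandermonde fun j : Fin n => zeta n ^ (j : ℕ)) = 0 := by
    funext k
    have := congrFun hc k
    rw [linComb_row_apply] at this
    simp only [Matrix.vecMul, dotProduct, Matrix.vandermonde_apply, Pi.zero_apply] at this ⊢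
    rw [← this]
    refine Finset.sum_congr rfl fun j _ => ?_
    rw [← pow_mul]
  have := Matrix.eq_zero_of_vecMul_eq_zero hdet hvec
  funext j
  have hj := congrFun this j
  simpa using hj

/-- Rational vectors depending only on the greatest common divisor of the index with `n`. -/
def gcdSub (n : ℕ) : Submodule ℚ (Fin n → ℚ) where
  carrier := {q | ∀ k k' : Fin n, Nat.gcd n k = Nat.gcd n k' → q k = q k'}
  add_mem' := by
    intro a b ha hb k k' h
    simp only [Pi.add_apply, ha k k' h, hb k k' h]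
  zero_mem' := by
    intro k k' _
    rfl
  smul_mem' := by
    intro t a ha k k' h
    simp only [Pi.smul_apply, ha k k' h]

theorem finrank_gcdSub_le (hn : 0 < n) : Module.finrank ℚ (gcdSub n) ≤ n.divisors.card := by
  let σ : n.divisors → Fin n := fun d => ⟨(d : ℕ) % n, Nat.mod_lt _ hn⟩
  have hinj : Function.Injective ((LinearMap.funLeft ℚ ℚ σ) ∘ₗ (gcdSub n).subtype) := by
    rw [injective_iff_map_eq_zero]
    rintro ⟨q, hq⟩ h0
    apply Subtype.ext
    funext k
    have hd : Nat.gcd n k ∈ n.divisors := Nat.mem_divisors.mpr ⟨Nat.gcd_dvd_left _ _, hn.ne'⟩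
    have h1 := congrFun h0 ⟨Nat.gcd n k, hd⟩
    simp only [LinearMap.comp_apply, Submodule.subtype_apply, LinearMap.funLeft_apply,
      Pi.zero_apply] at h1
    have h2 : Nat.gcd n k = Nat.gcd n (σ ⟨Nat.gcd n k, hd⟩ : Fin n) := by
      simp only [σ]
      rw [Nat.gcd_comm n (_ % n), ← Nat.gcd_rec]
      exact (Nat.gcd_eq_right (Nat.gcd_dvd_left n k)).symm
    show q k = 0
    rw [← h1]
    exact hq k _ h2
  have := LinearMap.finrank_le_finrank_of_injective hinj
  rwa [Module.finrank_fintype_fun_eq_card, Fintype.card_coe] at this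

theorem finrank_ker_le (hn : 0 < n) :
    Module.finrank ℚ (LinearMap.ker ((ratSub n).mkQ ∘ₗ Fintype.linearCombination ℚ (row n))) ≤
      n.divisors.card := by
  set K := LinearMap.ker ((ratSub n).mkQ ∘ₗ Fintype.linearCombination ℚ (row n)) with hK
  have hsub : K.map (Fintype.linearCombination ℚ (row n)) ≤ (gcdSub n).map (iota n) := by
    rintro _ ⟨c, hc, rfl⟩
    have hc' : Fintype.linearCombination ℚ (row n) c ∈ ratSub n := by
      have : ((ratSub n).mkQ ∘ₗ Fintype.linearCombination ℚ (row n)) c = 0 := hc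
      rwa [LinearMap.comp_apply, Submodule.mkQ_apply, Submodule.Quotient.mk_eq_zero] at this
    obtain ⟨q, hq⟩ := hc'
    refine ⟨q, ?_, hq⟩
    intro k k' hg
    have h1 := congrFun hq k
    have h2 := congrFun hq k'
    rw [iota_apply, linComb_row_apply] at h1 h2
    have h3 := rat_eval_eq hn (zeta_prim hn) c (q k) k k' hg h1.symm
    rw [← h2] at h3
    exact_mod_cast h3.symm
  calc Module.finrank ℚ K
      = Module.finrank ℚ (K.map (Fintype.linearCombination ℚ (row n))) :=
        (Submodule.equivMapOfInjective _ (linComb_row_injective hn) K).finrank_eq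
    _ ≤ Module.finrank ℚ ((gcdSub n).map (iota n)) := Submodule.finrank_mono hsub
    _ ≤ Module.finrank ℚ (gcdSub n) := Submodule.finrank_map_le _ _
    _ ≤ n.divisors.card := finrank_gcdSub_le hn

/-- The main lower bound. -/
theorem main_bound (hn : 2 ≤ n) (C : List Gate) (h : Computes n C) :
    2 * n ≤ addCount C + 2 ∧ n ≤ smulCount C + n.divisors.card ∧
      3 * n ≤ C.length + 2 + n.divisors.card := by
  have hn0 : 0 < n := by omega
  have hA : 2 * n ≤ addCount C + 2 := by
    apply two_mul_le_addCount hn ⟨0, hn0⟩ C (row n) (rows_mem C h)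
      (fun j k => row_ne_zero hn0 j k) _ (row_injective hn)
    intro j
    simp [row]
  have hB : n ≤ smulCount C + n.divisors.card := by
    obtain ⟨W, hW, hmem⟩ := inv3_run C (basisList n) 0 inv3_basis
    have h1 := le_card_add_finrank_ker (row n) W (fun j => hmem _ (rows_mem C h j))
    have h2 := finrank_ker_le hn0
    omega
  refine ⟨hA, hB, ?_⟩
  rw [length_eq_counts]
  omega

end Vale.Agent.P344
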