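import Vale.Agent.Lib.P344.Comb

/-!
# P344: the scalar part of the lower bound
-/

namespace Vale.Agent.P344

open Finset Polynomial

variable {n : ℕ}

/-- The embedding of the rational vectors. -/
noncomputable def iota (n : ℕ) : (Fin n → ℚ) →ₗ[ℚ] (Fin n → ℂ) :=
  (Algebra.linearMap ℚ ℂ).compLeft (Fin n)

theorem iota_apply (q : Fin n → ℚ) (k : Fin n) : iota n q k = (q k : ℂ) := by
  simp [iota]

theorem iota_injective : Function.Injective (iota n) := by
  intro a b h
  funext k
  have := congrFun h k
  rw [iota_apply, iota_apply] at this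
  exact_mod_cast this

/-- The rational vectors, as a rational subspace of the complex vectors. -/
noncomputable def ratSub (n : ℕ) : Submodule ℚ (Fin n → ℂ) := LinearMap.range (iota n)

/-- Third invariant: all values are rational combinations of rational vectors and few others. -/
def Inv3 (vals : List (Fin n → ℂ)) (m : ℕ) : Prop :=
  ∃ W : Finset (Fin n → ℂ), W.card ≤ m ∧
    ∀ v ∈ vals, v ∈ ratSub n ⊔ Submodule.span ℚ (W : Set (Fin n → ℂ))

theorem inv3_run (C : List Gate) (vals : List (Fin n → ℂ)) (m : ℕ) (h : Inv3 vals m) :
    Inv3 (run C vals) (m + smulCount C) := by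
  classical
  induction C generalizing vals m with
  | nil => exact h
  | cons g C ih =>
    obtain ⟨W, hW, hmem⟩ := h
    have hget : ∀ i, vals.getD i 0 ∈ ratSub n ⊔ Submodule.span ℚ (W : Set (Fin n → ℂ)) := by
      intro i
      rcases getD_mem_or_zero vals i with h1 | h1
      · exact hmem _ h1
      · rw [h1]; exact Submodule.zero_mem _
    cases g with
    | add i j =>
      simp only [run, smulCount]
      apply ih
      refine ⟨W, hW, ?_⟩
      intro v hv
      rw [List.mem_append, List.mem_singleton] at hv
      rcases hv with hv | hv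
      · exact hmem v hv
      · rw [hv]; exact Submodule.add_mem _ (hget i) (hget j)
    | sub i j =>
      simp only [run, smulCount]
      apply ih
      refine ⟨W, hW, ?_⟩
      intro v hv
      rw [List.mem_append, List.mem_singleton] at hv
      rcases hv with hv | hv
      · exact hmem v hv
      · rw [hv]; exact Submodule.sub_mem _ (hget i) (hget j)
    | smul t i =>
      simp only [run, smulCount]
      rw [show m + (smulCount C + 1) = m + 1 + smulCount C by omega]
      apply ih
      refine ⟨insert ((Gate.smul t i).eval vals) W, ?_, ?_⟩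
      · have := card_insert_le ((Gate.smul t i).eval vals) W
        omega
      · intro v hv
        rw [List.mem_append, List.mem_singleton] at hv
        have hmono : ratSub n ⊔ Submodule.span ℚ (W : Set (Fin n → ℂ)) ≤
            ratSub n ⊔ Submodule.span ℚ
              ((insert ((Gate.smul t i).eval vals) W : Finset (Fin n → ℂ)) : Set (Fin n → ℂ)) := by
          apply sup_le_sup_left
          apply Submodule.span_mono
          intro x hx
          simp only [coe_insert, Set.mem_insert_iff]
          exact Or.inr hx
        rcases hv with hv | hv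
        · exact hmono (hmem v hv)
        · rw [hv]
          apply Submodule.mem_sup_right
          apply Submodule.subset_span
          simp

theorem inv3_basis : Inv3 (basisList n) 0 := by
  classical
  refine ⟨∅, by simp, ?_⟩
  intro v hv
  rw [basisList, List.mem_ofFn] at hv
  obtain ⟨k, rfl⟩ := hv
  apply Submodule.mem_sup_left
  refine ⟨Pi.single k 1, ?_⟩
  funext l
  rw [iota_apply]
  by_cases h : l = k
  · subst h; simp
  · simp [Pi.single_eq_of_ne h]

/-- The rank argument. -/
theorem le_card_add_finrank_ker (r : Fin n → Fin n → ℂ) (W : Finset (Fin n → ℂ))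
    (hr : ∀ j, r j ∈ ratSub n ⊔ Submodule.span ℚ (W : Set (Fin n → ℂ))) :
    n ≤ W.card + Module.finrank ℚ
      (LinearMap.ker ((ratSub n).mkQ ∘ₗ Fintype.linearCombination ℚ r)) := by
  set φ := (ratSub n).mkQ ∘ₗ Fintype.linearCombination ℚ r with hφ
  have h1 := LinearMap.finrank_range_add_finrank_ker φ
  rw [Module.finrank_fintype_fun_eq_card, Fintype.card_fin] at h1
  have h2 : LinearMap.range φ ≤
      (Submodule.span ℚ (W : Set (Fin n → ℂ))).map (ratSub n).mkQ := by
    rintro _ ⟨c, rfl⟩
    have hc : Fintype.linearCombination ℚ r c ∈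
        ratSub n ⊔ Submodule.span ℚ (W : Set (Fin n → ℂ)) := by
      rw [Fintype.linearCombination_apply]
      exact Submodule.sum_mem _ fun j _ => Submodule.smul_mem _ _ (hr j)
    obtain ⟨a, ha, b, hb, hab⟩ := Submodule.mem_sup.mp hc
    refine ⟨b, hb, ?_⟩
    rw [hφ, LinearMap.comp_apply, ← hab, map_add]
    have : (ratSub n).mkQ a = 0 := by
      rw [Submodule.mkQ_apply, Submodule.Quotient.mk_eq_zero]; exact ha
    rw [this, zero_add]
  have h3 : Module.finrank ℚ (LinearMap.range φ) ≤ W.card := by
    calc Module.finrank ℚ (LinearMap.range φ)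
        ≤ Module.finrank ℚ ((Submodule.span ℚ (W : Set (Fin n → ℂ))).map (ratSub n).mkQ) :=
          Submodule.finrank_mono h2
      _ ≤ Module.finrank ℚ (Submodule.span ℚ (W : Set (Fin n → ℂ))) :=
          Submodule.finrank_map_le _ _
      _ ≤ W.card := finrank_span_finset_le_card W
  omega

end Vale.Agent.P344
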